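import Vale.Agent.P085.MathlibUsed

set_option autoImplicit false

namespace Vale.Agent.P085

variable {H : Type*} [NormedAddCommGroup H] [InnerProductSpace ℂ H] [CompleteSpace H]

/-- `M` is the smallest von Neumann algebra containing the set `S`. -/
def IsGeneratedBy (M : VonNeumannAlgebra H) (S : Set (H →L[ℂ] H)) : Prop :=
  S ⊆ (M : Set (H →L[ℂ] H)) ∧ ∀ N : VonNeumannAlgebra H, S ⊆ (N : Set (H →L[ℂ] H)) → M ≤ N

/-- `M` is singly generated. -/
def IsSinglyGenerated (M : VonNeumannAlgebra H) : Prop :=
  ∃ x : H →L[ℂ] H, IsGeneratedBy M {x}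

/-- `M` is a finite von Neumann algebra: every isometry in `M` is unitary. -/
def IsFiniteVN (M : VonNeumannAlgebra H) : Prop :=
  ∀ v ∈ M, star v * v = 1 → v * star v = 1

/-- A sequence of pairwise commuting systems of 2 x 2 matrix units: `e k` is the matrix unit
`e_12` of the `k`-th system. -/
structure IsMatrixUnitSeq (e : ℕ → (H →L[ℂ] H)) : Prop where
  sq_zero : ∀ k, e k * e k = 0
  sum_one : ∀ k, e k * star (e k) + star (e k) * e k = 1
  comm : ∀ j k, j ≠ k → e j * e k = e k * e j
  comm_star : ∀ j k, j ≠ k → e j * star (e k) = star (e k) * e j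

/-- `R` is (a copy of) the hyperfinite `II_1` factor: a finite von Neumann algebra generated by a
sequence of pairwise commuting systems of 2 x 2 matrix units. -/
def IsHyperfiniteII1 (R : VonNeumannAlgebra H) : Prop :=
  IsFiniteVN R ∧ ∃ e : ℕ → (H →L[ℂ] H), IsMatrixUnitSeq e ∧ IsGeneratedBy R (Set.range e)

end Vale.Agent.P085
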