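import Vale.Agent.P085.Defs

set_option autoImplicit false

namespace Vale.Agent.P085

variable {H : Type*} [NormedAddCommGroup H] [InnerProductSpace ℂ H] [CompleteSpace H]

/-- `M` is a factor: its centre consists of the scalars -/
def IsFactor (M : VonNeumannAlgebra H) : Prop :=
  ∀ z ∈ M, z ∈ M.commutant → ∃ c : ℂ, z = c • (1 : H →L[ℂ] H)

/-- the vectors `ξ n` implement a faithful normal tracial state
`τ(x) = ∑ ⟨ξ n, x ξ n⟩` on `M` -/
structure IsTraceVectors (M : VonNeumannAlgebra H) (ξ : ℕ → H) : Prop where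
  hasSum_one : HasSum (fun n => ‖ξ n‖ ^ 2) 1
  tracial : ∀ x ∈ M, ∑' n, ‖x (ξ n)‖ ^ 2 = ∑' n, ‖(star x) (ξ n)‖ ^ 2
  faithful : ∀ x ∈ M, (∀ n, x (ξ n) = 0) → x = 0

/-- `M` is a type `II_1` factor: an infinite-dimensional factor with a faithful normal tracial
state -/
def IsII1Factor (M : VonNeumannAlgebra H) : Prop :=
  IsFactor M ∧ ¬ FiniteDimensional ℂ (Submodule.span ℂ (M : Set (H →L[ℂ] H))) ∧
    ∃ ξ : ℕ → H, IsTraceVectors M ξ

end Vale.Agent.P085
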